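import Mathlib

namespace Vale.Agent.Results.P045.ThickIntersections

open Finset

/-- `IsRPartite r part E`: the hypergraph with edge set `E` is `r`-partite `r`-uniform with
respect to the vertex partition `part : V → Fin r`, i.e. every edge contains exactly one vertex
of each part. -/
def IsRPartite {V : Type*} (r : ℕ) (part : V → Fin r) (E : Finset (Finset V)) : Prop :=
  ∀ e ∈ E, ∀ i : Fin r, ∃! v, v ∈ e ∧ part v = i

/-- `C` is a vertex cover of `E`: it meets every edge. -/
def IsCover {V : Type*} (E : Finset (Finset V)) (C : Finset V) : Prop :=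
  ∀ e ∈ E, ∃ v ∈ e, v ∈ C

/-- `M` is a matching of `E`: a set of pairwise disjoint edges. -/
def IsMatching {V : Type*} [DecidableEq V] (E : Finset (Finset V)) (M : Finset (Finset V)) :
    Prop :=
  M ⊆ E ∧ ∀ e ∈ M, ∀ f ∈ M, e ≠ f → Disjoint e f

theorem result (V : Type*) [DecidableEq V] (r k : ℕ) (part : V → Fin r)
    (E : Finset (Finset V)) (hpart : IsRPartite r part E)
    (M : Finset (Finset V)) (hM : IsMatching E M)
    (hthick : ∀ f ∈ E, k < (f ∩ M.biUnion id).card) :
    ∃ C : Finset V, IsCover E C ∧ C.card ≤ (r - k) * M.card := by
  classical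
  -- injectivity of `part` on each edge
  have hinj : ∀ e ∈ E, Set.InjOn (fun v => (part v).val) (↑e : Set V) := by
    intro e he a ha b hb hab
    have hab' : part a = part b := Fin.ext hab
    obtain ⟨w, -, hw⟩ := hpart e he (part b)
    have h1 := hw a ⟨ha, hab'⟩
    have h2 := hw b ⟨hb, rfl⟩
    rw [h1, h2]
  refine ⟨(M.biUnion id).filter (fun v => k ≤ (part v).val), ?_, ?_⟩
  · -- cover: some vertex of `f` inside the matched vertex set has part index at least `k`
    intro f hf
    have hcard := hthick f hf
    have hex2 : ∃ v ∈ f ∩ M.biUnion id, k ≤ (part v).val := by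
      by_contra hcon
      push Not at hcon
      have hle : (f ∩ M.biUnion id).card ≤ (Finset.range k).card := by
        apply Finset.card_le_card_of_injOn (fun v => (part v).val)
        · intro v hv
          simp only [Finset.coe_range, Set.mem_Iio]
          exact hcon v hv
        · exact (hinj f hf).mono (by
            intro v hv
            exact (Finset.mem_inter.mp hv).1)
      rw [Finset.card_range] at hle
      omega
    obtain ⟨v, hv, hkv⟩ := hex2
    rw [Finset.mem_inter] at hv
    refine ⟨v, hv.1, ?_⟩
    rw [Finset.mem_filter]
    exact ⟨hv.2, hkv⟩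
  · -- cardinality
    rw [Finset.filter_biUnion]
    refine (Finset.card_biUnion_le).trans ?_
    rw [mul_comm]
    have : ∀ e ∈ M, (Finset.filter (fun v => k ≤ (part v).val) (id e)).card ≤ r - k := by
      intro e heM
      have heE : e ∈ E := hM.1 heM
      have hle : (Finset.filter (fun v => k ≤ (part v).val) e).card ≤ (Finset.Ico k r).card := by
        apply Finset.card_le_card_of_injOn (fun v => (part v).val)
        · intro v hv
          have hv' := Finset.mem_filter.mp (Finset.mem_coe.mp hv)
          simp only [Finset.coe_Ico, Set.mem_Ico]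
          exact ⟨hv'.2, (part v).isLt⟩
        · exact (hinj e heE).mono (by
            intro v hv
            exact (Finset.mem_filter.mp hv).1)
      rw [Nat.card_Ico] at hle
      exact hle
    calc ∑ e ∈ M, (Finset.filter (fun v => k ≤ (part v).val) (id e)).card
        ≤ ∑ _e ∈ M, (r - k) := Finset.sum_le_sum this
      _ = M.card * (r - k) := by rw [Finset.sum_const, smul_eq_mul]

end Vale.Agent.Results.P045.ThickIntersections
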